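import Vale.Agent.P331.BranchWidth

/-!
# P331: one sample suffices for matroids of bounded branch-width
-/

namespace Vale.Agent.Results.P331.BranchWidthMatroids

open Vale.Agent.P331 Vale.Agent.P331.Deg
open scoped ENNReal

theorem result :
    (∀ (E : Type) [Fintype E] [DecidableEq E] (M : Matroid E) (w : ℕ), BranchWidthLE M w →
      IsCompetitive M ((8 * (w + 1) : ℕ) : ℝ≥0∞)⁻¹) ∧
    (∀ (E : Type) [Fintype E] [DecidableEq E] (M : Matroid E) (C : ℕ), RankDegenerate M C →
      IsCompetitive M ((4 * (max C 1 + 1) : ℕ) : ℝ≥0∞)⁻¹) := by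
  refine ⟨fun E _ _ M w hM => ?_, fun E _ _ M C hM => isCompetitive_of_degenerate hM⟩
  have h := isCompetitive_of_degenerate (rankDegenerate_of_branchWidth hM)
  rwa [show max (2 * w + 1) 1 = 2 * w + 1 by omega,
    show 4 * (2 * w + 1 + 1) = 8 * (w + 1) by ring] at h

end Vale.Agent.Results.P331.BranchWidthMatroids
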