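import Vale.Agent.P331.Analysis

/-!
# P331: one sample suffices for partition-paving matroids

Definitions: `Vale.Agent.P331.Defs`.
-/

namespace Vale.Agent.P331

open MeasureTheory
open scoped ENNReal

variable {E ι : Type} [Fintype E] [DecidableEq E] [Fintype ι] [DecidableEq ι] {n : ℕ} {k : ι → ℕ}

theorem measurable_sureGain (idx : E → Fin n) (part : E → ι) (r : (∀ i, E → Fin (k i)) × (E → Bool))
    (e : E) : Measurable fun x : (E → ℝ) × (E → ℝ) => sureGain idx part r.1 r.2 x.1 x.2 e := by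
  classical
  have hlt : ∀ (g f : E) (a b : Bool),
      MeasurableSet {x : (E → ℝ) × (E → ℝ) | key idx (x.1 g) g a < key idx (x.2 f) f b} := by
    intro g f a b
    simp only [key, Prod.Lex.toLex_lt_toLex]
    exact (measurableSet_lt ((measurable_pi_apply g).comp measurable_fst)
      ((measurable_pi_apply f).comp measurable_snd)).union
      ((measurableSet_eq_fun ((measurable_pi_apply g).comp measurable_fst)
        ((measurable_pi_apply f).comp measurable_snd)).inter (MeasurableSet.const _))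
  have hpass : ∀ f : E,
      MeasurableSet {x : (E → ℝ) × (E → ℝ) | Passes idx part r.1 r.2 x.1 f (x.2 f)} := by
    intro f
    simp only [Passes, Set.ofPred_forall]
    exact MeasurableSet.iInter fun g => MeasurableSet.iInter fun _ => hlt g f _ _
  refine Measurable.ite ?_ (ENNReal.measurable_ofReal.comp
    ((measurable_pi_apply e).comp measurable_snd)) measurable_const
  simp only [Set.ofPred_and, Set.ofPred_forall]
  exact (hpass e).inter (MeasurableSet.iInter fun f => MeasurableSet.iInter fun _ =>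
    MeasurableSet.iInter fun _ => (hpass f).compl)

theorem measurable_opt (M : Matroid E) : Measurable (opt M) :=
  Measurable.iSup fun A => Measurable.iSup fun _ => Finset.measurable_sum A fun e _ =>
    ENNReal.measurable_ofReal.comp (measurable_pi_apply e)

theorem pointwise_bound {M : Matroid E} {idx : E → Fin n} (hidx : Function.Injective idx)
    {part : E → ι} (k : ι → ℕ) {C : ℕ} (hk : ∀ i, 0 < k i)
    (hrank : ∀ A : Finset E, M.Indep (A : Set E) →
      ∀ i, (A.filter fun e => part e = i).card ≤ C * k i) (x : (E → ℝ) × (E → ℝ)) :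
    (2 : ℝ≥0∞) ^ Fintype.card E *
        ((Fintype.card ((∀ i, E → Fin (k i)) × (E → Bool)) : ℝ≥0∞) / (C + 1 : ℕ)) * opt M x.2 ≤
      4 * ∑ c : E → Bool, ∑ B : ∀ i, E → Fin (k i), ∑ β : E → Bool,
        ∑ e, sureGain idx part B (fun e => xor (c e) (β e)) (swapVals c x).1 (swapVals c x).2 e := by
  classical
  set P : ℝ≥0∞ := 2 ^ Fintype.card E
  set R := Fintype.card ((∀ i, E → Fin (k i)) × (E → Bool))
  simp only [opt, ENNReal.mul_iSup]
  refine iSup₂_le fun A hA => ?_
  have h1 : ∀ e ∈ A, ((R : ℝ≥0∞) / (C + 1 : ℕ)) * ENNReal.ofReal (x.2 e) ≤ ∑ β : E → Bool,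
      ∑ B : ∀ i, E → Fin (k i), ENNReal.ofReal (x.2 e) *
        ((A.filter fun f => bin part B f = bin part B e).card : ℝ≥0∞)⁻¹ := by
    intro e he
    have h := sum_inv_card_ge (part := part) A he (hrank A hA _) (hk _)
    simp only [← Finset.mul_sum, Finset.sum_const, Finset.card_univ, nsmul_eq_mul]
    refine le_trans (le_of_eq ?_) (mul_le_mul_right (mul_le_mul_right h _) _)
    simp only [R, Fintype.card_prod, Nat.cast_mul, div_eq_mul_inv]
    ring
  calc P * ((R : ℝ≥0∞) / (C + 1 : ℕ)) * ∑ e ∈ A, ENNReal.ofReal (x.2 e)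
      = P * ∑ e ∈ A, ((R : ℝ≥0∞) / (C + 1 : ℕ)) * ENNReal.ofReal (x.2 e) := by
        rw [mul_assoc, Finset.mul_sum A]
    _ ≤ P * ∑ e ∈ A, ∑ β : E → Bool, ∑ B : ∀ i, E → Fin (k i), ENNReal.ofReal (x.2 e) *
          ((A.filter fun f => bin part B f = bin part B e).card : ℝ≥0∞)⁻¹ := by
        gcongr with e he; exact h1 e he
    _ = ∑ β : E → Bool, ∑ B : ∀ i, E → Fin (k i), P * ∑ e ∈ A, ENNReal.ofReal (x.2 e) *
          ((A.filter fun f => bin part B f = bin part B e).card : ℝ≥0∞)⁻¹ := by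
        simp only [Finset.mul_sum]
        rw [Finset.sum_comm]
        exact Finset.sum_congr rfl fun β _ => Finset.sum_comm
    _ ≤ ∑ β : E → Bool, ∑ B : ∀ i, E → Fin (k i), 4 * ∑ c : E → Bool,
          ∑ e, sureGain idx part B (fun e => xor (c e) (β e)) (swapVals c x).1 (swapVals c x).2 e :=
        Finset.sum_le_sum fun β _ => Finset.sum_le_sum fun B _ =>
          sum_swap_ge hidx B β x.1 x.2 A
    _ = _ := by
        simp only [← Finset.mul_sum]
        congr 1
        conv_rhs => rw [Finset.sum_comm]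
        rw [Finset.sum_comm]
        exact Finset.sum_congr rfl fun B _ => Finset.sum_comm

theorem exchange_bound (D : E → Measure ℝ) [∀ e, IsProbabilityMeasure (D e)]
    (g : (∀ i, E → Fin (k i)) × (E → Bool) → (E → ℝ) × (E → ℝ) → ℝ≥0∞) (hg : ∀ r, Measurable (g r))
    (φ : (E → ℝ) × (E → ℝ) → ℝ≥0∞)
    (hφ : ∀ x, φ x ≤ 4 * ∑ c : E → Bool, ∑ B, ∑ β : E → Bool,
      g (B, fun e => xor (c e) (β e)) (swapVals c x)) :
    ∫⁻ x, φ x ∂((Measure.pi D).prod (Measure.pi D)) ≤ 4 * ((2 : ℝ≥0∞) ^ Fintype.card E *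
      ∑ r, ∫⁻ x, g r x ∂((Measure.pi D).prod (Measure.pi D))) := by
  classical
  set μ := (Measure.pi D).prod (Measure.pi D)
  set P : ℝ≥0∞ := 2 ^ Fintype.card E
  -- each exchange preserves the total
  have hsym : ∀ c : E → Bool, ∑ B, ∑ β : E → Bool,
      ∫⁻ x, g (B, fun e => xor (c e) (β e)) (swapVals c x) ∂μ = ∑ r, ∫⁻ x, g r x ∂μ := by
    intro c
    rw [Fintype.sum_prod_type]
    refine Finset.sum_congr rfl fun B _ => ?_
    have hinv : Function.Involutive fun (β : E → Bool) e => xor (c e) (β e) :=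
      fun β => funext fun e => by simp
    refine (Finset.sum_congr rfl fun β _ =>
      (measurePreserving_swapVals D c).lintegral_comp (hg (B, fun e => xor (c e) (β e)))).trans ?_
    exact Equiv.sum_comp hinv.toPerm fun β => ∫⁻ x, g (B, β) x ∂μ
  refine (lintegral_mono hφ).trans (le_of_eq ?_)
  have hm : ∀ c B (β : E → Bool), Measurable fun x : (E → ℝ) × (E → ℝ) =>
      g (B, fun e => xor (c e) (β e)) (swapVals c x) := fun c B β =>
    (hg _).comp (measurePreserving_swapVals D c).measurable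
  have hm2 : ∀ c B, Measurable fun x : (E → ℝ) × (E → ℝ) =>
      ∑ β : E → Bool, g (B, fun e => xor (c e) (β e)) (swapVals c x) := fun c B =>
    Finset.measurable_sum _ fun β _ => hm c B β
  have hm3 : ∀ c, Measurable fun x : (E → ℝ) × (E → ℝ) => ∑ B, ∑ β : E → Bool,
      g (B, fun e => xor (c e) (β e)) (swapVals c x) := fun c =>
    Finset.measurable_sum _ fun B _ => hm2 c B
  rw [lintegral_const_mul _ (Finset.measurable_sum _ fun c _ => hm3 c),
    lintegral_finsetSum _ fun c _ => hm3 c]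
  congr 1
  have hc : ∀ c : E → Bool, ∫⁻ x, ∑ B, ∑ β : E → Bool,
      g (B, fun e => xor (c e) (β e)) (swapVals c x) ∂μ = ∑ r, ∫⁻ x, g r x ∂μ := fun c => by
    rw [lintegral_finsetSum _ fun B _ => hm2 c B, ← hsym c]
    exact Finset.sum_congr rfl fun B _ => lintegral_finsetSum _ fun β _ => hm c B β
  simp only [hc, Finset.sum_const, Finset.card_univ, nsmul_eq_mul]
  simp [P]

theorem isCompetitive_of_partition {M : Matroid E} {part : E → ι} (k : ι → ℕ) {C : ℕ}
    (hk : ∀ i, 0 < k i)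
    (hind : ∀ A : Finset E, (∀ i, (A.filter fun e => part e = i).card ≤ k i) → M.Indep (A : Set E))
    (hrank : ∀ A : Finset E, M.Indep (A : Set E) →
      ∀ i, (A.filter fun e => part e = i).card ≤ C * k i) :
    IsCompetitive M ((4 * (C + 1) : ℕ) : ℝ≥0∞)⁻¹ := by
  classical
  have : ∀ i, Nonempty (Fin (k i)) := fun i => ⟨⟨0, hk i⟩⟩
  set idx : E → Fin (Fintype.card E) := fun e => Fintype.equivFin E e
  have hidx : Function.Injective idx := (Fintype.equivFin E).injective
  refine ⟨(∀ i, E → Fin (k i)) × (E → Bool), inferInstance, inferInstance, binRule idx part,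
    fun r S V l _ => hind _ fun i => card_accepted_le r S V l i, fun D hD π hπ => ?_⟩
  set μ := (Measure.pi D).prod (Measure.pi D)
  set g : ((∀ i, E → Fin (k i)) × (E → Bool)) → (E → ℝ) × (E → ℝ) → ℝ≥0∞ :=
    fun r x => ∑ e, sureGain idx part r.1 r.2 x.1 x.2 e
  have hg : ∀ r, Measurable (g r) := fun r =>
    Finset.measurable_sum _ fun e _ => measurable_sureGain idx part r e
  set R := Fintype.card ((∀ i, E → Fin (k i)) × (E → Bool))
  set P : ℝ≥0∞ := 2 ^ Fintype.card E
  have hint : P * ((R : ℝ≥0∞) / (C + 1 : ℕ)) * ∫⁻ V, opt M V ∂(Measure.pi D) ≤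
      4 * (P * ∑ r, ∫⁻ x, g r x ∂μ) := by
    have e1 : ∫⁻ V, opt M V ∂(Measure.pi D) = ∫⁻ x, opt M x.2 ∂μ :=
      ((measurePreserving_snd (μ := Measure.pi D) (ν := Measure.pi D)).lintegral_comp
        (measurable_opt M)).symm
    rw [e1, ← lintegral_const_mul _ (show Measurable fun x : (E → ℝ) × (E → ℝ) => opt M x.2 from
      (measurable_opt M).comp measurable_snd)]
    exact exchange_bound D g hg _ fun x => pointwise_bound hidx k hk hrank x
  have hR0 : (R : ℝ≥0∞) ≠ 0 := Nat.cast_ne_zero.2 Fintype.card_ne_zero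
  have hP0 : P ≠ 0 := pow_ne_zero _ two_ne_zero
  have hPt : P ≠ ⊤ := ENNReal.pow_ne_top ENNReal.ofNat_ne_top
  refine le_trans ?_ (lintegral_mono fun x => mul_le_mul_right (Finset.sum_le_sum fun r _ =>
    sum_sureGain_le (hπ r x.1 x.2).1 (hπ r x.1 x.2).2) _)
  rw [lintegral_const_mul _ (Finset.measurable_sum _ fun r _ => hg r),
    lintegral_finsetSum _ fun r _ => hg r]
  set I := ∫⁻ V, opt M V ∂(Measure.pi D)
  set S := ∑ r, ∫⁻ x, g r x ∂μ
  have h4 : (R : ℝ≥0∞) / (C + 1 : ℕ) * I ≤ 4 * S := by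
    rw [← ENNReal.mul_le_mul_iff_right hP0 hPt]
    calc P * ((R : ℝ≥0∞) / (C + 1 : ℕ) * I) = P * ((R : ℝ≥0∞) / (C + 1 : ℕ)) * I := by ring
      _ ≤ 4 * (P * S) := hint
      _ = P * (4 * S) := by ring
  calc ((4 * (C + 1) : ℕ) : ℝ≥0∞)⁻¹ * I
      = (R : ℝ≥0∞)⁻¹ * (4⁻¹ * ((R : ℝ≥0∞) / (C + 1 : ℕ) * I)) := by
        rw [Nat.cast_mul, ENNReal.mul_inv (Or.inr (ENNReal.natCast_ne_top _))
          (Or.inr (Nat.cast_ne_zero.2 (Nat.succ_ne_zero C))), div_eq_mul_inv, Nat.cast_ofNat]
        calc (4 : ℝ≥0∞)⁻¹ * ((C + 1 : ℕ) : ℝ≥0∞)⁻¹ * I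
            = ((R : ℝ≥0∞)⁻¹ * R) * (4⁻¹ * ((C + 1 : ℕ) : ℝ≥0∞)⁻¹ * I) := by
              rw [ENNReal.inv_mul_cancel hR0 (ENNReal.natCast_ne_top _), one_mul]
          _ = _ := by ring
    _ ≤ (R : ℝ≥0∞)⁻¹ * (4⁻¹ * (4 * S)) := by gcongr
    _ = (R : ℝ≥0∞)⁻¹ * S := by
        rw [← mul_assoc (4 : ℝ≥0∞)⁻¹, ENNReal.inv_mul_cancel (by norm_num) (by norm_num), one_mul]

end Vale.Agent.P331

namespace Vale.Agent.Results.P331.PartitionPaving

open MeasureTheory Vale.Agent.P331
open scoped ENNReal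

theorem result :
    (∀ (E ι : Type) [Fintype E] [DecidableEq E] [Fintype ι] [DecidableEq ι] (M : Matroid E)
      (part : E → ι) (k : ι → ℕ) (C : ℕ), (∀ i, 0 < k i) →
      (∀ A : Finset E, (∀ i, (A.filter fun e => part e = i).card ≤ k i) → M.Indep (A : Set E)) →
      (∀ A : Finset E, M.Indep (A : Set E) → ∀ i, (A.filter fun e => part e = i).card ≤ C * k i) →
      IsCompetitive M ((4 * (C + 1) : ℕ) : ℝ≥0∞)⁻¹) ∧
    (∀ (E : Type) [Fintype E] [DecidableEq E] (M : Matroid E) (r : ℕ), 2 ≤ r →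
      (∀ A : Finset E, A.card < r → M.Indep (A : Set E)) →
      (∀ A : Finset E, M.Indep (A : Set E) → A.card ≤ r) →
      IsCompetitive M (12 : ℝ≥0∞)⁻¹) := by
  refine ⟨fun E ι _ _ _ _ M part k C hk hind hrank => isCompetitive_of_partition k hk hind hrank,
    fun E _ _ M r hr hsmall hrk => ?_⟩
  have h := isCompetitive_of_partition (M := M) (part := fun _ : E => ()) (fun _ => r - 1) (C := 2)
    (fun _ => by omega) (fun A hA => hsmall A (by have := hA (); simp at this; omega))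
    (fun A hA i => (Finset.card_le_card (Finset.filter_subset _ _)).trans
      ((hrk A hA).trans (by omega)))
  simpa using h

end Vale.Agent.Results.P331.PartitionPaving
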